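import Vale.Agent.P245N.Defs
import Vale.Agent.P245N.Final

open MeasureTheory Real Filter Set
open scoped Topology RealInnerProductSpace

namespace Vale.Agent.P245N

open Vale.Agent.P245

variable {n : ℕ}

section

variable {μ : Measure (Euc n)} [IsProbabilityMeasure μ] {R t : ℝ}

/-- Subgaussianity at scale one bounds the centred exponential moments. -/
lemma sub3_exp (hS : Supp μ R) (h : Sub3 μ) (v : Euc n) :
    ∫ x, exp ⟪v, x⟫ ∂μ ≤ exp (⟪v, ∫ x, x ∂μ⟫ + 9 * ‖v‖ ^ 2) := by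
  set m := ∫ x, x ∂μ with hm
  have hvm : ∫ x, ⟪v, x⟫ ∂μ = ⟪v, m⟫ := integral_inner (f := fun x : Euc n => x) (hS.integrable (by fun_prop)) v
  have hm2 : |⟪v, m⟫| ≤ 3 / 2 * ‖v‖ := by rw [← hvm]; exact abs_integral_inner_le hS h v
  have hm2' : ⟪v, m⟫ ^ 2 ≤ 9 / 4 * ‖v‖ ^ 2 := by
    rw [← sq_abs]
    exact (pow_le_pow_left₀ (abs_nonneg _) hm2 2).trans (le_of_eq (by ring))
  rcases lt_or_ge (1 / 2) (‖v‖ ^ 2) with hv | hv
  · have h1 := log_integral_exp_inner_sub hS h v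
    rw [← exp_log (integral_exp_pos (f := fun x => ⟪v, x⟫) (hS.integrable (by fun_prop))), exp_le_exp]
    linarith [(abs_le.1 hm2).1, sq_nonneg (‖v‖ - 3 / 4),
      show (‖v‖ - 3 / 4) ^ 2 = ‖v‖ ^ 2 - 3 / 2 * ‖v‖ + 9 / 16 by ring]
  rcases eq_or_ne v 0 with rfl | hv0
  · simp
  set r := ‖v‖ with hr
  have hr0 : 0 ≤ r := norm_nonneg _
  set u := r⁻¹ • v with hu
  have hu1 : ‖u‖ = 1 := norm_smul_inv_norm hv0
  have huv : ∀ x, ⟪v, x⟫ = r * ⟪u, x⟫ := fun x => by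
    rw [hu, real_inner_smul_left, ← mul_assoc, mul_inv_cancel₀ (norm_ne_zero_iff.2 hv0), one_mul]
  have hpt : ∀ x, exp (⟪v, x⟫ - ⟪v, m⟫) ≤ (⟪v, x⟫ - ⟪v, m⟫)
      + exp (2 * ⟪v, m⟫ ^ 2) * ((1 - 2 * r ^ 2) + 2 * r ^ 2 * exp (⟪u, x⟫ ^ 2)) := fun x => by
    refine (exp_le_add_exp_sq _).trans (add_le_add le_rfl ?_)
    have hy : (⟪v, x⟫ - ⟪v, m⟫) ^ 2 ≤ 2 * ⟪v, m⟫ ^ 2 + 2 * r ^ 2 * ⟪u, x⟫ ^ 2 := by
      rw [huv x]; linarith [sq_nonneg (r * ⟪u, x⟫ + ⟪v, m⟫), show (r * ⟪u, x⟫ + ⟪v, m⟫) ^ 2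
        = r ^ 2 * ⟪u, x⟫ ^ 2 + 2 * (r * ⟪u, x⟫ * ⟪v, m⟫) + ⟪v, m⟫ ^ 2 by ring, show (r * ⟪u, x⟫ - ⟪v, m⟫) ^ 2
        = r ^ 2 * ⟪u, x⟫ ^ 2 - 2 * (r * ⟪u, x⟫ * ⟪v, m⟫) + ⟪v, m⟫ ^ 2 by ring]
    refine (exp_le_exp.2 hy).trans ?_
    rw [exp_add]
    refine mul_le_mul_of_nonneg_left ?_ (exp_pos _).le
    have hc := convexOn_exp.2 (mem_univ (0 : ℝ)) (mem_univ (⟪u, x⟫ ^ 2))
      (by linarith : (0 : ℝ) ≤ 1 - 2 * r ^ 2) (by positivity : (0 : ℝ) ≤ 2 * r ^ 2) (by ring)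
    simpa using hc
  have key := integral_mono (hS.integrable (μ := μ) (by fun_prop)) (hS.integrable (μ := μ) (by fun_prop)) hpt
  rw [integral_add (hS.integrable (by fun_prop)) (hS.integrable (by fun_prop)),
    integral_sub (hS.integrable (by fun_prop)) (integrable_const _), integral_const_mul,
    integral_add (integrable_const _) (hS.integrable (by fun_prop)), integral_const_mul, integral_const,
    integral_const, probReal_univ, one_smul, one_smul, hvm, sub_self, zero_add] at key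
  have e : ∀ x, exp (⟪v, x⟫ - ⟪v, m⟫) = exp (-⟪v, m⟫) * exp ⟪v, x⟫ := fun x => by rw [← exp_add]; ring_nf
  rw [integral_congr_ae (Eventually.of_forall e), integral_const_mul] at key
  have h3 : 1 - 2 * r ^ 2 + 2 * r ^ 2 * ∫ x, exp (⟪u, x⟫ ^ 2) ∂μ ≤ exp (4 * r ^ 2) := by
    have := mul_le_mul_of_nonneg_left (h u hu1) (by positivity : 0 ≤ 2 * r ^ 2)
    linarith [add_one_le_exp (4 * r ^ 2)]
  have h4 := key.trans (mul_le_mul_of_nonneg_left h3 (exp_pos _).le)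
  rw [← exp_add] at h4
  rw [exp_add]
  refine le_of_mul_le_mul_left (h4.trans ?_) (exp_pos (-⟪v, m⟫))
  rw [← mul_assoc, ← exp_add, neg_add_cancel, exp_zero, one_mul, exp_le_exp]
  linarith [sq_nonneg r]

/-- The channel of `Defs` as the channel of `Final`. -/
lemma chan_eq_chd {r : ℝ} (hr : 0 ≤ r) (Δ : Euc n → Euc n) (z θ : Euc n) :
    chan r Δ z θ = chd (fun θ => √r • Δ θ) θ z := by
  rw [chan, chd, real_inner_smul_left, norm_smul, norm_eq_abs, mul_pow, sq_abs, Real.sq_sqrt hr]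
  ring_nf

lemma elaw_pair (hS : Supp μ R) {h : Euc n → ℝ} (hh : Continuous h) {B : ℝ} (hB : ∀ θ, |h θ| ≤ B) :
    elaw t μ h = ∫ y, h (pt (√t) y.1 y.2) ∂(μ.prod (gam n)) := by
  rw [integral_prod _ (integrable_pair hS (f := fun y : Euc n × Euc n => h (pt (√t) y.1 y.2))
    (hh.comp (continuous_pt₂ _)) fun _ _ _ => hB _)]
  rfl

lemma elaw_sum (hS : Supp μ R) {ι : Type*} (s : Finset ι) {h : ι → Euc n → ℝ} (hh : ∀ i, Continuous (h i))
    {B : ι → ℝ} (hB : ∀ i θ, |h i θ| ≤ B i) :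
    elaw t μ (fun θ => ∑ i ∈ s, h i θ) = ∑ i ∈ s, elaw t μ (h i) := by
  have hi : ∀ i ∈ s, Integrable (fun y : Euc n × Euc n => h i (pt (√t) y.1 y.2)) (μ.prod (gam n)) := fun i _ =>
    integrable_pair hS ((hh i).comp (continuous_pt₂ _)) fun _ _ _ => hB i _
  rw [elaw_pair hS (continuous_finsetSum _ fun i _ => hh i) (B := ∑ i ∈ s, B i)
    fun θ => (Finset.abs_sum_le_sum_abs _ _).trans (Finset.sum_le_sum fun i _ => hB i θ),
    integral_finsetSum s hi]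
  exact Finset.sum_congr rfl fun i _ => (elaw_pair hS (hh i) (hB i)).symm

/-- Continuity in the channel output. -/
lemma continuous_elaw_chd (hS : Supp μ R) {a : Euc n → Euc n} (ha : Continuous a) {A : ℝ} (hA : ∀ θ, ‖a θ‖ ≤ A)
    {h : Euc n → ℝ} (hh : Continuous h) {B : ℝ} (hB : ∀ θ, |h θ| ≤ B) :
    Continuous fun z => elaw t μ fun θ => chd a θ z * h θ := by
  have hb : ∀ z θ, |chd a θ z * h θ| ≤ exp (A * ‖z‖) * B := fun z θ => by
    rw [abs_mul, abs_of_pos (chd_pos _ _ _)]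
    exact mul_le_mul (chd_le hA θ z) (hB θ) (abs_nonneg _) (exp_pos _).le
  have hc := continuous_chd ha
  have e : (fun z => elaw t μ fun θ => chd a θ z * h θ)
      = fun z => ∫ y, chd a (pt (√t) y.1 y.2) z * h (pt (√t) y.1 y.2) ∂(μ.prod (gam n)) :=
    funext fun z => elaw_pair hS ((hc.comp (continuous_id.prodMk (continuous_const (y := z)))).mul hh) (hb z)
  rw [e]
  refine continuous_iff_continuousAt.2 fun z₀ => ?_
  have hA0 : 0 ≤ A := (norm_nonneg _).trans (hA 0)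
  have hB0 : 0 ≤ B := (abs_nonneg _).trans (hB 0)
  refine continuousAt_of_dominated (bound := fun _ => exp (A * (‖z₀‖ + 1)) * B)
    (Eventually.of_forall fun z => ((hc.comp ((continuous_pt₂ _).prodMk continuous_const)).mul
      (hh.comp (continuous_pt₂ _))).aestronglyMeasurable) ?_ (integrable_const _)
    (Eventually.of_forall fun y => ((hc.comp (continuous_const.prodMk continuous_id)).mul continuous_const).continuousAt)
  filter_upwards [Metric.ball_mem_nhds z₀ one_pos] with z hz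
  refine Eventually.of_forall fun y => (hb z _).trans (mul_le_mul_of_nonneg_right ?_ hB0)
  rw [exp_le_exp]
  refine mul_le_mul_of_nonneg_left ?_ hA0
  rw [Metric.mem_ball, dist_eq_norm] at hz
  linarith [norm_le_norm_add_norm_sub' z z₀]


/-- Channel integral at output `z` of `f`, weighted by `q`. -/
noncomputable def cm (t : ℝ) (μ : Measure (Euc n)) (q : Euc n → ℝ) (a : Euc n → Euc n) (f : Euc n → ℝ) (z : Euc n) : ℝ :=
  elaw t μ fun θ => chd a θ z * (q θ * f θ)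

/-- A bounded positive continuous weight with a bounded continuous channel. -/
structure Wt (q : Euc n → ℝ) (up : ℝ) (a : Euc n → Euc n) (A : ℝ) : Prop where
  qc : Continuous q
  qpos : ∀ θ, 0 < q θ
  qle : ∀ θ, q θ ≤ up
  ac : Continuous a
  ale : ∀ θ, ‖a θ‖ ≤ A

variable {q : Euc n → ℝ} {up : ℝ} {a : Euc n → Euc n} {A : ℝ}

lemma Wt.up_nonneg (W : Wt q up a A) : 0 ≤ up := (W.qpos 0).le.trans (W.qle 0)

lemma Wt.cont (W : Wt q up a A) {f : Euc n → ℝ} (hf : Continuous f) (z : Euc n) :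
    Continuous fun θ => chd a θ z * (q θ * f θ) :=
  ((continuous_chd W.ac).comp (continuous_id.prodMk (continuous_const (y := z)))).mul (W.qc.mul hf)

lemma Wt.bd (W : Wt q up a A) {f : Euc n → ℝ} {B : ℝ} (hB : ∀ θ, |f θ| ≤ B) (z θ : Euc n) :
    |chd a θ z * (q θ * f θ)| ≤ exp (A * ‖z‖) * (up * B) := by
  rw [abs_mul, abs_mul, abs_of_pos (chd_pos _ _ _), abs_of_pos (W.qpos θ)]
  exact mul_le_mul (chd_le W.ale θ z) (mul_le_mul (W.qle θ) (hB θ) (abs_nonneg _) W.up_nonneg)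
    (mul_nonneg (W.qpos θ).le (abs_nonneg _)) (exp_pos _).le

lemma cm_affine (hS : Supp μ R) (W : Wt q up a A) {f : Euc n → ℝ} (hf : Continuous f) {B : ℝ}
    (hB : ∀ θ, |f θ| ≤ B) (c : ℝ) (z : Euc n) : cm t μ q a (fun θ => c * f θ) z = c * cm t μ q a f z := by
  have h := elaw_affine (t := t) hS (W.cont hf z) (W.bd hB z) c 0
  simp only [add_zero] at h
  rw [cm, cm, ← h]
  congr 1; funext θ; ring

lemma cm_add (hS : Supp μ R) (W : Wt q up a A) {f f₂ : Euc n → ℝ} (hf : Continuous f) (hf₂ : Continuous f₂)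
    {B B₂ : ℝ} (hB : ∀ θ, |f θ| ≤ B) (hB₂ : ∀ θ, |f₂ θ| ≤ B₂) (z : Euc n) :
    cm t μ q a (fun θ => f θ + f₂ θ) z = cm t μ q a f z + cm t μ q a f₂ z := by
  rw [cm, cm, cm, ← elaw_add hS (W.cont hf z) (W.cont hf₂ z) (W.bd hB z) (W.bd hB₂ z)]
  congr 1; funext θ; ring

lemma cm_sum (hS : Supp μ R) (W : Wt q up a A) {ι : Type*} (s : Finset ι) {f : ι → Euc n → ℝ}
    (hf : ∀ i, Continuous (f i)) {B : ι → ℝ} (hB : ∀ i θ, |f i θ| ≤ B i) (z : Euc n) :
    cm t μ q a (fun θ => ∑ i ∈ s, f i θ) z = ∑ i ∈ s, cm t μ q a (f i) z := by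
  simp only [cm]
  rw [← elaw_sum hS s (h := fun i θ => chd a θ z * (q θ * f i θ)) (fun i => W.cont (hf i) z) fun i => W.bd (hB i) z]
  simp only [Finset.mul_sum]

lemma cm_mono (hS : Supp μ R) (W : Wt q up a A) {f f₂ : Euc n → ℝ} (hf : Continuous f) (hf₂ : Continuous f₂)
    {B B₂ : ℝ} (hB : ∀ θ, |f θ| ≤ B) (hB₂ : ∀ θ, |f₂ θ| ≤ B₂) (hle : ∀ θ, f θ ≤ f₂ θ) (z : Euc n) :
    cm t μ q a f z ≤ cm t μ q a f₂ z :=
  elaw_mono hS (W.cont hf z) (W.cont hf₂ z) (W.bd hB z) (W.bd hB₂ z) fun θ =>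
    mul_le_mul_of_nonneg_left (mul_le_mul_of_nonneg_left (hle θ) (W.qpos θ).le) (chd_pos _ _ _).le

lemma cm_integral (hS : Supp μ R) (W : Wt q up a A) {f : Euc n → ℝ} (hf : Continuous f) {B : ℝ}
    (hB : ∀ θ, |f θ| ≤ B) : Integrable (cm t μ q a f) (gam n) ∧
      ∫ z, cm t μ q a f z ∂(gam n) = elaw t μ fun θ => q θ * f θ := by
  obtain ⟨hi, he⟩ := swap_gam (t := t) hS (h := fun θ z => chd a θ z * (q θ * f θ))
    ((continuous_chd W.ac).mul ((W.qc.mul hf).comp continuous_fst)) (B := up * B) (c := A)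
    fun θ z => (W.bd hB z θ).trans (le_of_eq (mul_comm _ _))
  refine ⟨hi, he.trans ?_⟩
  simp only [integral_mul_const, integral_chd, one_mul]

lemma cm_continuous (hS : Supp μ R) (W : Wt q up a A) {f : Euc n → ℝ} (hf : Continuous f) {B : ℝ}
    (hB : ∀ θ, |f θ| ≤ B) : Continuous (cm t μ q a f) :=
  continuous_elaw_chd hS W.ac W.ale (W.qc.mul hf) (B := up * B) fun θ => by
    rw [abs_mul, abs_of_pos (W.qpos θ)]; exact mul_le_mul (W.qle θ) (hB θ) (abs_nonneg _) W.up_nonneg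

lemma cm_le (hS : Supp μ R) (W : Wt q up a A) (z : Euc n) :
    cm t μ q a (fun _ => 1) z ≤ up * exp (A * ‖z‖) := by
  have h := elaw_mono (t := t) hS (h₂ := fun _ => exp (A * ‖z‖) * (up * 1)) (W.cont continuous_const z)
    continuous_const (B₂ := |exp (A * ‖z‖) * (up * 1)|) (W.bd (f := fun _ => (1 : ℝ)) (B := 1) (fun _ => le_of_eq abs_one) z)
    (fun _ => le_rfl) (fun θ => (le_abs_self _).trans (W.bd (f := fun _ => (1 : ℝ)) (B := 1) (fun _ => le_of_eq abs_one) z θ))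
  rw [elaw_const] at h
  simpa [cm, mul_comm up] using h

lemma cm_one_pos (hS : Supp μ R) (W : Wt q up a A) {lo : ℝ} (hlo : 0 < lo) (hq : ∀ θ, lo ≤ q θ) (z : Euc n) :
    0 < cm t μ q a (fun _ => 1) z := by
  set k := exp (-(A * ‖z‖) - A ^ 2 / 2) * (lo * 1) with hk
  have h := elaw_mono (t := t) hS (h₁ := fun _ => k) continuous_const (W.cont continuous_const z)
    (B₁ := |k|) (fun _ => le_rfl) (W.bd (f := fun _ => (1 : ℝ)) (B := 1) (fun _ => le_of_eq abs_one) z)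
    (fun θ => mul_le_mul (exp_le_exp.2 (by
      have h1 := (abs_real_inner_le_norm (a θ) z).trans (mul_le_mul_of_nonneg_right (W.ale θ) (norm_nonneg _))
      have h2 := pow_le_pow_left₀ (norm_nonneg _) (W.ale θ) 2
      linarith [(abs_le.1 h1).1])) (mul_le_mul_of_nonneg_right (hq θ) zero_le_one) (by positivity) (chd_pos _ _ _).le)
  rw [elaw_const] at h
  exact lt_of_lt_of_le (by positivity) h

end

lemma le_sqrt_mul_of_forall {a G X : ℝ} (hG : 0 ≤ G) (hX : 0 ≤ X)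
    (h : ∀ s : ℝ, 0 < s → a ≤ s * G / 2 + X / (2 * s)) : a ≤ √(G * X) := by
  refine le_of_forall_pos_le_add fun η hη => ?_
  set G' := √G + η / (√X + √G + η + 1) with hG'
  set X' := √X + η / (√X + √G + η + 1) with hX'
  have hd : 0 < √X + √G + η + 1 := by positivity
  have hG0 : 0 < G' := by positivity
  have hX0 : 0 < X' := by positivity
  have h1 := h (X' / G') (by positivity)
  have hGG : G ≤ G' ^ 2 :=
    (Real.sq_sqrt hG).ge.trans (pow_le_pow_left₀ (Real.sqrt_nonneg _) (le_add_of_nonneg_right (by positivity)) 2)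
  have hXX : X ≤ X' ^ 2 :=
    (Real.sq_sqrt hX).ge.trans (pow_le_pow_left₀ (Real.sqrt_nonneg _) (le_add_of_nonneg_right (by positivity)) 2)
  have h2 : X' / G' * G / 2 + X / (2 * (X' / G')) ≤ X' * G' := by
    have e1 : X' / G' * G / 2 ≤ X' / G' * G' ^ 2 / 2 := by gcongr
    have e2 : X / (2 * (X' / G')) ≤ X' ^ 2 / (2 * (X' / G')) := by gcongr
    have e3 : X' / G' * G' ^ 2 / 2 + X' ^ 2 / (2 * (X' / G')) = X' * G' := by field_simp; ring
    linarith
  have h3 : X' * G' ≤ √(G * X) + η := by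
    rw [Real.sqrt_mul hG, hG', hX']
    set ε := η / (√X + √G + η + 1) with hε
    have he0 : 0 ≤ ε := by positivity
    have he : ε * (√X + √G + η + 1) = η := by rw [hε, div_mul_cancel₀ _ hd.ne']
    have he1 : ε ≤ η + 1 := by
      refine le_trans ?_ (show η ≤ η + 1 by linarith)
      rw [hε]; exact div_le_self hη.le (by linarith [Real.sqrt_nonneg X, Real.sqrt_nonneg G])
    linarith [mul_le_mul_of_nonneg_left he1 he0, show (√X + ε) * (√G + ε) = √G * √X + ε * (√X + √G + ε) by ring,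
      show ε * (√X + √G + ε) = ε * √X + ε * √G + ε * ε by ring,
      show ε * (√X + √G + η + 1) = ε * √X + ε * √G + ε * (η + 1) by ring]
  linarith

end Vale.Agent.P245N
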